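import Vale.Agent.Lib.P074.LB.Core

/-!
# P074 lower bound: a convex nonnegative function is controlled by its average on a ball
-/

namespace Vale.Agent.Lib.P074

open MeasureTheory ENNReal

variable {d : ℕ}

lemma integrableOn_ball_of_continuous {f : E d → ℝ} (hf : Continuous f) (c : E d) (r : ℝ) :
    IntegrableOn f (Metric.ball c r) volume :=
  (hf.continuousOn.integrableOn_compact (isCompact_closedBall c r)).mono_set
    Metric.ball_subset_closedBall

/-- A convex nonnegative continuous function satisfies
`vol(B_h) * f v ≤ ∫_{B(0, 2h)} f` whenever `‖v‖ ≤ h`. -/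
lemma convex_le_avg {f : E d → ℝ} (hf : ConvexOn ℝ Set.univ f) (hc : Continuous f)
    (h0 : ∀ w, 0 ≤ f w) {h : ℝ} (v : E d) (hv : ‖v‖ ≤ h) :
    (volume (Metric.ball (0 : E d) h)).toReal * f v ≤ ∫ w in Metric.ball (0 : E d) (2 * h), f w := by
  set B := Metric.ball (0 : E d) h with hB
  have hBm : MeasurableSet B := Metric.isOpen_ball.measurableSet
  -- midpoint convexity
  have hmid : ∀ a, f v ≤ (f (v + a) + f (v - a)) / 2 := by
    intro a
    have h := hf.2 (Set.mem_univ (v + a)) (Set.mem_univ (v - a)) (by norm_num : (0 : ℝ) ≤ 1 / 2)
      (by norm_num : (0 : ℝ) ≤ 1 / 2) (by norm_num)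
    have e : (1 / 2 : ℝ) • (v + a) + (1 / 2 : ℝ) • (v - a) = v := by
      rw [← smul_add]
      have : v + a + (v - a) = (2 : ℝ) • v := by rw [two_smul]; abel
      rw [this, smul_smul]; norm_num
    rw [e] at h
    simp only [smul_eq_mul] at h
    linarith
  have hi1 : IntegrableOn (fun a => f (v + a)) B volume :=
    integrableOn_ball_of_continuous (hc.comp (continuous_const.add continuous_id)) 0 h
  have hi2 : IntegrableOn (fun a => f (v - a)) B volume :=
    integrableOn_ball_of_continuous (hc.comp (continuous_const.sub continuous_id)) 0 h
  -- symmetry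
  have hsym : ∫ a in B, f (v - a) = ∫ a in B, f (v + a) := by
    rw [← integral_indicator hBm, ← integral_indicator hBm]
    rw [← integral_neg_eq_self (fun a => B.indicator (fun a => f (v + a)) a) volume]
    congr 1
    ext a
    by_cases ha : a ∈ B
    · have ha' : -a ∈ B := by
        rw [hB, Metric.mem_ball, dist_zero_right] at ha ⊢
        rwa [norm_neg]
      rw [Set.indicator_of_mem ha, Set.indicator_of_mem ha']
      simp [sub_eq_add_neg]
    · have ha' : -a ∉ B := by
        rw [hB, Metric.mem_ball, dist_zero_right] at ha ⊢
        rwa [norm_neg]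
      rw [Set.indicator_of_notMem ha, Set.indicator_of_notMem ha']
  -- translation
  have htr : ∫ a in B, f (v + a) = ∫ w in Metric.ball v h, f w := by
    rw [← integral_indicator hBm, ← integral_indicator Metric.isOpen_ball.measurableSet]
    rw [← integral_add_left_eq_self (fun w => (Metric.ball v h).indicator f w) v]
    congr 1
    ext a
    by_cases ha : a ∈ B
    · have ha' : v + a ∈ Metric.ball v h := by
        rw [hB, Metric.mem_ball, dist_zero_right] at ha
        rw [Metric.mem_ball, dist_eq_norm]
        simpa using ha
      rw [Set.indicator_of_mem ha, Set.indicator_of_mem ha']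
    · have ha' : v + a ∉ Metric.ball v h := by
        rw [hB, Metric.mem_ball, dist_zero_right] at ha
        rw [Metric.mem_ball, dist_eq_norm]
        simpa using ha
      rw [Set.indicator_of_notMem ha, Set.indicator_of_notMem ha']
  have hfin : volume B ≠ ⊤ := (measure_ball_lt_top).ne
  calc (volume B).toReal * f v = ∫ _ in B, f v := by
        rw [setIntegral_const, smul_eq_mul]; rfl
    _ ≤ ∫ a in B, (f (v + a) + f (v - a)) / 2 := by
        apply setIntegral_mono_on _ _ hBm (fun a _ => hmid a)
        · exact integrableOn_const hfin
        · exact (hi1.add hi2).div_const 2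
    _ = ∫ a in B, f (v + a) := by
        have : (fun a => (f (v + a) + f (v - a)) / 2) =
            fun a => (1 / 2 : ℝ) * f (v + a) + (1 / 2 : ℝ) * f (v - a) := by
          ext a; ring
        rw [this, integral_add (hi1.const_mul _) (hi2.const_mul _), integral_const_mul,
          integral_const_mul, hsym]
        ring
    _ = ∫ w in Metric.ball v h, f w := htr
    _ ≤ ∫ w in Metric.ball (0 : E d) (2 * h), f w := by
        apply setIntegral_mono_set (integrableOn_ball_of_continuous hc 0 (2 * h))
        · exact Filter.Eventually.of_forall h0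
        · apply Filter.Eventually.of_forall
          intro w hw
          have hw' : dist w v < h := hw
          rw [dist_eq_norm] at hw'
          show dist w 0 < 2 * h
          rw [dist_zero_right]
          calc ‖w‖ = ‖(w - v) + v‖ := by rw [sub_add_cancel]
            _ ≤ ‖w - v‖ + ‖v‖ := norm_add_le _ _
            _ < 2 * h := by linarith

end Vale.Agent.Lib.P074
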