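import Vale.Agent.Lib.P074.Defs

/-!
# P074 lower bound: pointwise convexity estimates

Second differences of a convex function and the Bregman lower bound.
-/

namespace Vale.Agent.Lib.P074

open MeasureTheory ENNReal

variable {d : ℕ}

/-- Second difference of `ψ` at `x` in the direction `w`. -/
def sd (ψ : E d → ℝ) (w x : E d) : ℝ := ψ (x + w) + ψ (x - w) - 2 * ψ x

lemma sd_nonneg {ψ : E d → ℝ} (hψ : ConvexOn ℝ Set.univ ψ) (w x : E d) : 0 ≤ sd ψ w x := by
  have h := hψ.2 (Set.mem_univ (x + w)) (Set.mem_univ (x - w)) (by norm_num : (0 : ℝ) ≤ 1 / 2)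
    (by norm_num : (0 : ℝ) ≤ 1 / 2) (by norm_num)
  have e : (1 / 2 : ℝ) • (x + w) + (1 / 2 : ℝ) • (x - w) = x := by
    rw [← smul_add]
    have : x + w + (x - w) = (2 : ℝ) • x := by rw [two_smul]; abel
    rw [this, smul_smul]; norm_num
  rw [e] at h
  simp only [smul_eq_mul] at h
  unfold sd
  linarith

lemma sd_zero (ψ : E d → ℝ) (x : E d) : sd ψ 0 x = 0 := by
  unfold sd; simp; ring

lemma sd_convex {ψ : E d → ℝ} (hψ : ConvexOn ℝ Set.univ ψ) (x : E d) :
    ConvexOn ℝ Set.univ (fun w => sd ψ w x) := by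
  refine ⟨convex_univ, ?_⟩
  intro w₁ _ w₂ _ a b ha hb hab
  have h1 := hψ.2 (Set.mem_univ (x + w₁)) (Set.mem_univ (x + w₂)) ha hb hab
  have h2 := hψ.2 (Set.mem_univ (x - w₁)) (Set.mem_univ (x - w₂)) ha hb hab
  have e1 : a • (x + w₁) + b • (x + w₂) = x + (a • w₁ + b • w₂) := by
    have : x = a • x + b • x := by rw [← add_smul, hab, one_smul]
    nth_rewrite 3 [this]
    simp only [smul_add]; abel
  have e2 : a • (x - w₁) + b • (x - w₂) = x - (a • w₁ + b • w₂) := by
    have : x = a • x + b • x := by rw [← add_smul, hab, one_smul]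
    nth_rewrite 3 [this]
    simp only [smul_sub]; abel
  rw [e1] at h1
  rw [e2] at h2
  simp only [smul_eq_mul] at h1 h2 ⊢
  unfold sd
  have : 2 * ψ x = a * (2 * ψ x) + b * (2 * ψ x) := by rw [← add_mul, hab, one_mul]
  nlinarith

lemma sd_le_of_lipschitz {ψ : E d → ℝ} {R : ℝ} (hL : ∀ x y, |ψ x - ψ y| ≤ R * ‖x - y‖)
    (w x : E d) : sd ψ w x ≤ 2 * R * ‖w‖ := by
  have h1 := (abs_le.mp (hL (x + w) x)).2
  have h2 := (abs_le.mp (hL (x - w) x)).2
  simp only [add_sub_cancel_left] at h1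
  have e : x - w - x = -w := by abel
  rw [e, norm_neg] at h2
  unfold sd; linarith

/-- Bregman lower bound: if `p` is a subgradient of `ψ` at `x` and `q` is a subgradient at `x'`,
then for every `w`, `ψ x - ψ x' - ⟨q, x - x'⟩ ≥ ⟨p - q, w⟩ - sd ψ w x`. -/
lemma bregman_lower {ψ : E d → ℝ} {x x' p q : E d}
    (hp : ∀ z, ψ x + inner ℝ p (z - x) ≤ ψ z) (hq : ∀ z, ψ x' + inner ℝ q (z - x') ≤ ψ z)
    (w : E d) :
    inner ℝ (p - q) w - sd ψ w x ≤ ψ x - ψ x' - inner ℝ q (x - x') := by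
  have h1 := hq (x - w)
  have h2 := hp (x + w)
  have e1 : x - w - x' = (x - x') - w := by abel
  have e2 : x + w - x = w := by abel
  rw [e1, inner_sub_right] at h1
  rw [e2] at h2
  rw [inner_sub_left]
  unfold sd
  linarith

/-- Key pointwise inequality: `h * ‖p - q‖ ≤ D + sd ψ w x` with `w` of norm `h` in the
direction of `p - q`. -/
lemma bregman_lower_norm {ψ : E d → ℝ} {x x' p q : E d}
    (hp : ∀ z, ψ x + inner ℝ p (z - x) ≤ ψ z) (hq : ∀ z, ψ x' + inner ℝ q (z - x') ≤ ψ z)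
    {h : ℝ} (hh : 0 ≤ h) :
    ∃ w : E d, ‖w‖ ≤ h ∧
      h * ‖p - q‖ ≤ ψ x - ψ x' - inner ℝ q (x - x') + sd ψ w x := by
  by_cases hpq : p - q = 0
  · refine ⟨0, by simpa using hh, ?_⟩
    have := bregman_lower hp hq 0
    rw [hpq] at this ⊢
    simp only [norm_zero, mul_zero, inner_zero_left] at this ⊢
    linarith
  · have hn : 0 < ‖p - q‖ := norm_pos_iff.mpr hpq
    refine ⟨(h / ‖p - q‖) • (p - q), ?_, ?_⟩
    · rw [norm_smul, Real.norm_eq_abs, abs_of_nonneg (div_nonneg hh hn.le),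
        div_mul_cancel₀ _ hn.ne']
    · have := bregman_lower hp hq ((h / ‖p - q‖) • (p - q))
      rw [inner_smul_right, real_inner_self_eq_norm_sq] at this
      have e : h / ‖p - q‖ * ‖p - q‖ ^ 2 = h * ‖p - q‖ := by
        field_simp
      rw [e] at this
      linarith

end Vale.Agent.Lib.P074
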