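import Vale.Agent.Lib.P074.LB.Stab

/-!
# P074 lower bound: the analytic core (integration against the lifted coupling)
-/

namespace Vale.Agent.Lib.P074

open MeasureTheory ENNReal

variable {d : ℕ}

lemma opt_h {x a b : ℝ} (ha : 0 ≤ a) (hb : 0 ≤ b) (h : ∀ t : ℝ, 0 < t → x ≤ a / t + b * t) :
    x ≤ 2 * Real.sqrt (a * b) := by
  rcases ha.eq_or_lt with rfl | ha'
  · simp only [zero_mul, Real.sqrt_zero, mul_zero]
    by_contra hx
    push Not at hx
    have h1 := h (x / (2 * (b + 1))) (by positivity)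
    rw [zero_div, zero_add] at h1
    have h2 : b * (x / (2 * (b + 1))) < x := by
      rw [← mul_div_assoc, div_lt_iff₀ (by positivity)]
      nlinarith
    linarith
  rcases hb.eq_or_lt with rfl | hb'
  · simp only [mul_zero, Real.sqrt_zero]
    by_contra hx
    push Not at hx
    have h1 := h (2 * a / x) (by positivity)
    rw [zero_mul, add_zero] at h1
    have e : a / (2 * a / x) = x / 2 := by field_simp
    linarith
  · have ht : 0 < Real.sqrt (a / b) := Real.sqrt_pos.mpr (div_pos ha' hb')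
    have h1 := h (Real.sqrt (a / b)) ht
    have e1 : a / Real.sqrt (a / b) = Real.sqrt (a * b) := by
      rw [div_eq_iff ht.ne', ← Real.sqrt_mul (by positivity)]
      have : a * b * (a / b) = a ^ 2 := by field_simp
      rw [this, Real.sqrt_sq ha]
    have e2 : b * Real.sqrt (a / b) = Real.sqrt (a * b) := by
      have : a * b = b ^ 2 * (a / b) := by field_simp
      rw [this, Real.sqrt_mul (by positivity), Real.sqrt_sq hb]
    linarith

lemma integrable_of_ae_bound {α : Type*} [MeasurableSpace α] {μ : Measure α} [IsFiniteMeasure μ]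
    {f : α → ℝ} (hf : Measurable f) (M : ℝ) (hb : ∀ᵐ x ∂μ, |f x| ≤ M) : Integrable f μ :=
  Integrable.of_bound hf.aestronglyMeasurable M (by simpa [Real.norm_eq_abs] using hb)

lemma norm_sq_sub_le (a b c : E d) : ‖a - c‖ ^ 2 ≤ 2 * ‖a - b‖ ^ 2 + 2 * ‖b - c‖ ^ 2 := by
  have h : ‖a - c‖ ≤ ‖a - b‖ + ‖b - c‖ := by
    calc ‖a - c‖ = ‖(a - b) + (b - c)‖ := by rw [sub_add_sub_cancel]
      _ ≤ ‖a - b‖ + ‖b - c‖ := norm_add_le _ _
  nlinarith [norm_nonneg (a - c), norm_nonneg (a - b), norm_nonneg (b - c),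
    sq_nonneg (‖a - b‖ - ‖b - c‖)]

/-- The pointwise inequality behind the core estimate. -/
lemma pointwise_core {φ ψ : E d → ℝ} {R RK : ℝ} (hR : 0 ≤ R)
    (hψ : ConvexOn ℝ Set.univ ψ) (hLψ : ∀ x y, |ψ x - ψ y| ≤ R * ‖x - y‖)
    {x x' tx sx sx' : E d} (hx : ‖x‖ ≤ RK) (hx' : ‖x'‖ ≤ RK)
    (htx : ∀ z, φ x + inner ℝ tx (z - x) ≤ φ z)
    (hsx : ∀ z, ψ x + inner ℝ sx (z - x) ≤ ψ z)
    (hsx' : ∀ z, ψ x' + inner ℝ sx' (z - x') ≤ ψ z) {h : ℝ} (hh : 0 < h) :
    h * ‖sx - sx'‖ ^ 2 ≤ 2 * R * (ψ x - ψ x' + (φ x' - φ x) + 2 * RK * ‖tx - sx'‖ +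
      avgSd ψ h x) := by
  have hc := lipschitz_continuous hLψ
  obtain ⟨w, hw, hmain⟩ := bregman_lower_norm hsx hsx' hh.le
  have hsd := sd_le_avgSd hψ hc hh x hw
  have hφ := htx x'
  have hinner : inner ℝ (sx' - tx) (x' - x) ≤ 2 * RK * ‖tx - sx'‖ := by
    calc inner ℝ (sx' - tx) (x' - x) ≤ ‖sx' - tx‖ * ‖x' - x‖ := real_inner_le_norm _ _
      _ ≤ ‖sx' - tx‖ * (2 * RK) := by
          gcongr
          calc ‖x' - x‖ ≤ ‖x'‖ + ‖x‖ := norm_sub_le _ _
            _ ≤ 2 * RK := by linarith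
      _ = 2 * RK * ‖tx - sx'‖ := by rw [norm_sub_rev]; ring
  have hexp : inner ℝ (sx' - tx) (x' - x) = - inner ℝ sx' (x - x') - inner ℝ tx (x' - x) := by
    rw [inner_sub_left, ← neg_sub x x', inner_neg_right]
  have h1 : h * ‖sx - sx'‖ ≤ ψ x - ψ x' + (φ x' - φ x) + 2 * RK * ‖tx - sx'‖ + avgSd ψ h x := by
    linarith
  have hn1 := norm_le_of_subgradient hR hLψ hsx
  have hn2 := norm_le_of_subgradient hR hLψ hsx'
  have hn : ‖sx - sx'‖ ≤ 2 * R := by
    calc ‖sx - sx'‖ ≤ ‖sx‖ + ‖sx'‖ := norm_sub_le _ _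
      _ ≤ 2 * R := by linarith
  have hn0 := norm_nonneg (sx - sx')
  calc h * ‖sx - sx'‖ ^ 2 = ‖sx - sx'‖ * (h * ‖sx - sx'‖) := by ring
    _ ≤ 2 * R * (h * ‖sx - sx'‖) := by
        apply mul_le_mul_of_nonneg_right hn (by positivity)
    _ ≤ 2 * R * (ψ x - ψ x' + (φ x' - φ x) + 2 * RK * ‖tx - sx'‖ + avgSd ψ h x) := by
        apply mul_le_mul_of_nonneg_left h1 (by positivity)

theorem core_stability (d : ℕ) : CoreStatement d := by
  intro K hK hconv hint R hR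
  obtain ⟨c, hc⟩ := hint
  obtain ⟨ε, hε, hεb⟩ := Metric.isOpen_iff.mp isOpen_interior c hc
  set r0 := ε / 2 with hr0def
  have hr0 : 0 < r0 := by positivity
  have hball : Metric.closedBall c r0 ⊆ K :=
    (Metric.closedBall_subset_ball (by rw [hr0def]; linarith)).trans (hεb.trans interior_subset)
  have hcK : c ∈ K := interior_subset hc
  obtain ⟨RK, hRK⟩ := hK.isBounded.exists_norm_le
  have hRK0 : 0 ≤ RK := (norm_nonneg c).trans (hRK c hcK)
  set c₁ : ℝ := 2 ^ d * (8 * (d + 1) * R / r0) with hc₁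
  have hc₁0 : 0 ≤ c₁ := by rw [hc₁]; positivity
  refine ⟨8 * R * Real.sqrt (2 * RK * c₁), by positivity, ?_⟩
  intro φ ψ T S hφ hψ hLφ hLψ hT hS hTφ hSψ Γ h1 h2
  have : IsProbabilityMeasure (unif K) := unif_isProbabilityMeasure hK ⟨c, hc⟩
  have : IsProbabilityMeasure Γ := by
    constructor
    have := measure_univ (μ := unif K)
    rw [← h1, Measure.map_apply measurable_fst MeasurableSet.univ] at this
    simpa using this
  have hcψ := lipschitz_continuous hLψ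
  have hcφ := lipschitz_continuous hLφ
  have hV : 0 < (volume K).toReal :=
    ENNReal.toReal_pos (volume_pos_of_interior ⟨c, hc⟩).ne' hK.measure_lt_top.ne
  -- almost everywhere properties under Γ
  have hmem := ae_mem_unif hK
  have ha1 : ∀ᵐ q ∂Γ, q.1 ∈ K ∧ (∀ z, φ q.1 + inner ℝ (T q.1) (z - q.1) ≤ φ z) ∧
      (∀ z, ψ q.1 + inner ℝ (S q.1) (z - q.1) ≤ ψ z) := by
    have : ∀ᵐ x ∂(Γ.map Prod.fst), x ∈ K ∧ (∀ z, φ x + inner ℝ (T x) (z - x) ≤ φ z) ∧
        (∀ z, ψ x + inner ℝ (S x) (z - x) ≤ ψ z) := by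
      rw [h1]
      filter_upwards [hmem, hTφ, hSψ] with x hx1 hx2 hx3 using ⟨hx1, hx2, hx3⟩
    exact ae_of_ae_map measurable_fst.aemeasurable this
  have ha2 : ∀ᵐ q ∂Γ, q.2 ∈ K ∧ (∀ z, ψ q.2 + inner ℝ (S q.2) (z - q.2) ≤ ψ z) := by
    have : ∀ᵐ x ∂(Γ.map Prod.snd), x ∈ K ∧ (∀ z, ψ x + inner ℝ (S x) (z - x) ≤ ψ z) := by
      rw [h2]
      filter_upwards [hmem, hSψ] with x hx1 hx3 using ⟨hx1, hx3⟩
    exact ae_of_ae_map measurable_snd.aemeasurable this
  -- bounds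
  have hbT : ∀ᵐ q ∂Γ, ‖T q.1‖ ≤ R := by
    filter_upwards [ha1] with q hq using norm_le_of_subgradient hR hLφ hq.2.1
  have hbS1 : ∀ᵐ q ∂Γ, ‖S q.1‖ ≤ R := by
    filter_upwards [ha1] with q hq using norm_le_of_subgradient hR hLψ hq.2.2
  have hbS2 : ∀ᵐ q ∂Γ, ‖S q.2‖ ≤ R := by
    filter_upwards [ha2] with q hq using norm_le_of_subgradient hR hLψ hq.2
  have hbound_on_K : ∀ (f : E d → ℝ), (∀ x y, |f x - f y| ≤ R * ‖x - y‖) → ∀ x ∈ K,
      |f x| ≤ |f c| + R * (2 * RK) := by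
    intro f hf x hx
    have h3 := hf x c
    have h4 : ‖x - c‖ ≤ 2 * RK := by
      calc ‖x - c‖ ≤ ‖x‖ + ‖c‖ := norm_sub_le _ _
        _ ≤ 2 * RK := by linarith [hRK x hx, hRK c hcK]
    have h5 : |f x| ≤ |f c| + |f x - f c| := by
      have := abs_add_le (f c) (f x - f c)
      rw [add_sub_cancel] at this
      exact this
    nlinarith
  -- measurability
  have mT1 : Measurable fun q : E d × E d => T q.1 := hT.comp measurable_fst
  have mS1 : Measurable fun q : E d × E d => S q.1 := hS.comp measurable_fst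
  have mS2 : Measurable fun q : E d × E d => S q.2 := hS.comp measurable_snd
  have mF0 : Measurable fun q : E d × E d => ‖T q.1 - S q.1‖ ^ 2 := (mT1.sub mS1).norm.pow_const 2
  have mF1 : Measurable fun q : E d × E d => ‖S q.1 - S q.2‖ ^ 2 := (mS1.sub mS2).norm.pow_const 2
  have mF2 : Measurable fun q : E d × E d => ‖T q.1 - S q.2‖ ^ 2 := (mT1.sub mS2).norm.pow_const 2
  have mF3 : Measurable fun q : E d × E d => ‖T q.1 - S q.2‖ := (mT1.sub mS2).norm
  have mψ1 : Measurable fun q : E d × E d => ψ q.1 := hcψ.measurable.comp measurable_fst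
  have mψ2 : Measurable fun q : E d × E d => ψ q.2 := hcψ.measurable.comp measurable_snd
  have mφ1 : Measurable fun q : E d × E d => φ q.1 := hcφ.measurable.comp measurable_fst
  have mφ2 : Measurable fun q : E d × E d => φ q.2 := hcφ.measurable.comp measurable_snd
  -- integrability
  have hsq : ∀ {a b : E d}, ‖a‖ ≤ R → ‖b‖ ≤ R → ‖a - b‖ ≤ 2 * R := by
    intro a b ha hb
    calc ‖a - b‖ ≤ ‖a‖ + ‖b‖ := norm_sub_le _ _
      _ ≤ 2 * R := by linarith
  have hsq2 : ∀ {a b : E d}, ‖a‖ ≤ R → ‖b‖ ≤ R → |‖a - b‖ ^ 2| ≤ (2 * R) ^ 2 := by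
    intro a b ha hb
    rw [abs_of_nonneg (by positivity)]
    exact pow_le_pow_left₀ (norm_nonneg _) (hsq ha hb) 2
  have iF0 : Integrable (fun q : E d × E d => ‖T q.1 - S q.1‖ ^ 2) Γ :=
    integrable_of_ae_bound mF0 ((2 * R) ^ 2) (by
      filter_upwards [hbT, hbS1] with q h1 h2 using hsq2 h1 h2)
  have iF1 : Integrable (fun q : E d × E d => ‖S q.1 - S q.2‖ ^ 2) Γ :=
    integrable_of_ae_bound mF1 ((2 * R) ^ 2) (by
      filter_upwards [hbS1, hbS2] with q h1 h2 using hsq2 h1 h2)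
  have iF2 : Integrable (fun q : E d × E d => ‖T q.1 - S q.2‖ ^ 2) Γ :=
    integrable_of_ae_bound mF2 ((2 * R) ^ 2) (by
      filter_upwards [hbT, hbS2] with q h1 h2 using hsq2 h1 h2)
  have iF3 : Integrable (fun q : E d × E d => ‖T q.1 - S q.2‖) Γ :=
    integrable_of_ae_bound mF3 (2 * R) (by
      filter_upwards [hbT, hbS2] with q h1 h2
      rw [abs_of_nonneg (norm_nonneg _)]
      exact hsq h1 h2)
  have iψ1 : Integrable (fun q : E d × E d => ψ q.1) Γ :=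
    integrable_of_ae_bound mψ1 (|ψ c| + R * (2 * RK)) (by
      filter_upwards [ha1] with q hq using hbound_on_K ψ hLψ q.1 hq.1)
  have iψ2 : Integrable (fun q : E d × E d => ψ q.2) Γ :=
    integrable_of_ae_bound mψ2 (|ψ c| + R * (2 * RK)) (by
      filter_upwards [ha2] with q hq using hbound_on_K ψ hLψ q.2 hq.1)
  have iφ1 : Integrable (fun q : E d × E d => φ q.1) Γ :=
    integrable_of_ae_bound mφ1 (|φ c| + R * (2 * RK)) (by
      filter_upwards [ha1] with q hq using hbound_on_K φ hLφ q.1 hq.1)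
  have iφ2 : Integrable (fun q : E d × E d => φ q.2) Γ :=
    integrable_of_ae_bound mφ2 (|φ c| + R * (2 * RK)) (by
      filter_upwards [ha2] with q hq using hbound_on_K φ hLφ q.2 hq.1)
  -- marginal identities
  have eψ : ∫ q, ψ q.1 ∂Γ = ∫ q, ψ q.2 ∂Γ := by
    rw [← integral_map measurable_fst.aemeasurable hcψ.aestronglyMeasurable,
      ← integral_map measurable_snd.aemeasurable hcψ.aestronglyMeasurable, h1, h2]
  have eφ : ∫ q, φ q.1 ∂Γ = ∫ q, φ q.2 ∂Γ := by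
    rw [← integral_map measurable_fst.aemeasurable hcφ.aestronglyMeasurable,
      ← integral_map measurable_snd.aemeasurable hcφ.aestronglyMeasurable, h1, h2]
  have eF0 : ∫ q, ‖T q.1 - S q.1‖ ^ 2 ∂Γ = ∫ x, ‖T x - S x‖ ^ 2 ∂(unif K) := by
    have hm : Measurable fun x : E d => ‖T x - S x‖ ^ 2 := (hT.sub hS).norm.pow_const 2
    rw [← h1, integral_map measurable_fst.aemeasurable hm.aestronglyMeasurable]
  -- the key estimate for each h
  have hkey : ∀ h : ℝ, 0 < h →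
      ∫ x, ‖T x - S x‖ ^ 2 ∂(unif K) - 2 * ∫ q, ‖T q.1 - S q.2‖ ^ 2 ∂Γ ≤
        (4 * R * (2 * RK) * ∫ q, ‖T q.1 - S q.2‖ ∂Γ) / h + (4 * R * c₁) * h := by
    intro h hh
    have mA : Measurable fun q : E d × E d => avgSd ψ h q.1 :=
      (avgSd_measurable hcψ h).comp measurable_fst
    have iA : Integrable (fun q : E d × E d => avgSd ψ h q.1) Γ :=
      integrable_of_ae_bound mA (2 ^ d * (4 * R * h)) (Filter.Eventually.of_forall fun q => by
        rw [abs_of_nonneg (avgSd_nonneg hψ h q.1)]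
        exact avgSd_le_bound hR hLψ hh q.1)
    have eA : ∫ q, avgSd ψ h q.1 ∂Γ ≤ c₁ * h ^ 2 := by
      rw [← integral_map measurable_fst.aemeasurable
        (avgSd_measurable hcψ h).aestronglyMeasurable, h1, integral_unif]
      have := integral_avgSd_le hK hconv hr0 hball hR hLψ hh
      rw [inv_mul_le_iff₀ hV]
      calc ∫ x in K, avgSd ψ h x ≤ 2 ^ d * (8 * (d + 1) * R / r0) * h ^ 2 * (volume K).toReal :=
            this
        _ = (volume K).toReal * (c₁ * h ^ 2) := by rw [hc₁]; ring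
    -- pointwise
    have hpt : ∀ᵐ q ∂Γ, h * ‖S q.1 - S q.2‖ ^ 2 ≤
        2 * R * (ψ q.1 - ψ q.2 + (φ q.2 - φ q.1) + 2 * RK * ‖T q.1 - S q.2‖ +
          avgSd ψ h q.1) := by
      filter_upwards [ha1, ha2] with q hq1 hq2
      exact pointwise_core hR hψ hLψ (hRK _ hq1.1) (hRK _ hq2.1) hq1.2.1 hq1.2.2 hq2.2 hh
    have iG : Integrable (fun q : E d × E d => 2 * R * (ψ q.1 - ψ q.2 + (φ q.2 - φ q.1) +
        2 * RK * ‖T q.1 - S q.2‖ + avgSd ψ h q.1)) Γ :=
      ((((iψ1.sub iψ2).add (iφ2.sub iφ1)).add (iF3.const_mul (2 * RK))).add iA).const_mul (2 * R)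
    have hint1 : h * ∫ q, ‖S q.1 - S q.2‖ ^ 2 ∂Γ ≤
        2 * R * (2 * RK * ∫ q, ‖T q.1 - S q.2‖ ∂Γ + c₁ * h ^ 2) := by
      have e1 : h * ∫ q, ‖S q.1 - S q.2‖ ^ 2 ∂Γ = ∫ q, h * ‖S q.1 - S q.2‖ ^ 2 ∂Γ := by
        rw [integral_const_mul]
      have e2 : ∫ q, 2 * R * (ψ q.1 - ψ q.2 + (φ q.2 - φ q.1) +
          2 * RK * ‖T q.1 - S q.2‖ + avgSd ψ h q.1) ∂Γ =
          2 * R * (2 * RK * ∫ q, ‖T q.1 - S q.2‖ ∂Γ + ∫ q, avgSd ψ h q.1 ∂Γ) := by
        have iD1 : Integrable (fun q : E d × E d => ψ q.1 - ψ q.2) Γ := iψ1.sub iψ2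
        have iD2 : Integrable (fun q : E d × E d => φ q.2 - φ q.1) Γ := iφ2.sub iφ1
        have iD3 : Integrable (fun q : E d × E d => 2 * RK * ‖T q.1 - S q.2‖) Γ :=
          iF3.const_mul _
        have iD12 : Integrable (fun q : E d × E d => ψ q.1 - ψ q.2 + (φ q.2 - φ q.1)) Γ :=
          iD1.add iD2
        have iD123 : Integrable (fun q : E d × E d => ψ q.1 - ψ q.2 + (φ q.2 - φ q.1) +
            2 * RK * ‖T q.1 - S q.2‖) Γ := iD12.add iD3
        rw [integral_const_mul, integral_add iD123 iA, integral_add iD12 iD3,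
          integral_add iD1 iD2, integral_sub iψ1 iψ2, integral_sub iφ2 iφ1, integral_const_mul,
          eψ, eφ]
        ring
      rw [e1]
      refine (integral_mono_ae (iF1.const_mul h) iG hpt).trans ?_
      rw [e2]
      apply mul_le_mul_of_nonneg_left _ (by positivity)
      linarith
    have hint2 : ∫ q, ‖T q.1 - S q.1‖ ^ 2 ∂Γ ≤
        2 * ∫ q, ‖T q.1 - S q.2‖ ^ 2 ∂Γ + 2 * ∫ q, ‖S q.1 - S q.2‖ ^ 2 ∂Γ := by
      rw [← integral_const_mul, ← integral_const_mul, ← integral_add (iF2.const_mul 2)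
        (iF1.const_mul 2)]
      apply integral_mono iF0 ((iF2.const_mul 2).add (iF1.const_mul 2))
      intro q
      have := norm_sq_sub_le (T q.1) (S q.2) (S q.1)
      rw [norm_sub_rev (S q.2) (S q.1)] at this
      exact this
    rw [eF0] at hint2
    have h3 : ∫ q, ‖S q.1 - S q.2‖ ^ 2 ∂Γ ≤
        2 * R * (2 * RK * ∫ q, ‖T q.1 - S q.2‖ ∂Γ + c₁ * h ^ 2) / h := by
      rw [le_div_iff₀ hh, mul_comm]
      exact hint1
    have e3 : 2 * (2 * R * (2 * RK * ∫ q, ‖T q.1 - S q.2‖ ∂Γ + c₁ * h ^ 2) / h) =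
        (4 * R * (2 * RK) * ∫ q, ‖T q.1 - S q.2‖ ∂Γ) / h + (4 * R * c₁) * h := by
      field_simp
      ring
    linarith
  have hw0 : 0 ≤ ∫ q, ‖T q.1 - S q.2‖ ∂Γ := integral_nonneg fun q => norm_nonneg _
  have hfin := opt_h (by positivity) (by positivity) hkey
  have e4 : 2 * Real.sqrt (4 * R * (2 * RK) * (∫ q, ‖T q.1 - S q.2‖ ∂Γ) * (4 * R * c₁)) =
      8 * R * Real.sqrt (2 * RK * c₁) * Real.sqrt (∫ q, ‖T q.1 - S q.2‖ ∂Γ) := by
    have : 4 * R * (2 * RK) * (∫ q, ‖T q.1 - S q.2‖ ∂Γ) * (4 * R * c₁) =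
        (4 * R) ^ 2 * ((2 * RK * c₁) * ∫ q, ‖T q.1 - S q.2‖ ∂Γ) := by ring
    rw [this, Real.sqrt_mul (by positivity), Real.sqrt_sq (by positivity),
      Real.sqrt_mul (by positivity)]
    ring
  rw [e4] at hfin
  linarith

end Vale.Agent.Lib.P074
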