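import Vale.Agent.Lib.P074.LB.CoreStab
import Vale.Agent.Lib.P074.helper2.Lift
import Vale.Agent.Lib.P074.helper59.GoodSet
import Vale.Agent.Lib.P074.helper75.Swap
import Vale.Agent.Lib.P074.helper94.Rockafellar
import Vale.Agent.Lib.P074.helper55.RealOfCore
import Vale.Agent.Lib.P074.helper81.AdmOfReal
import Vale.Agent.Lib.P074.Main

/-!
# P074 lower bound: the exponent 1/4 is admissible

Assembly of the parts:
* `swap_ineq`, `exists_good_set_of_swap`: an optimal map is cyclically monotone on a set of full
  measure;
* `rockafellar`: a cyclically monotone map is a subgradient selection of a convex Lipschitz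
  function;
* `exists_lift`: a coupling of the targets lifts to a coupling of the source with itself;
* `core_stability`: the analytic core;
* `real_of_pot_core`, `admissible_of_real`: bookkeeping.
-/

namespace Vale.Agent.Lib.P074

open MeasureTheory ENNReal

/-- An optimal map with bounded values is, almost everywhere, a subgradient selection of a convex
Lipschitz function (a Brenier-type statement, proved by hand). -/
theorem pot_statement (d : ℕ) : PotStatement d := by
  intro K hK hconv hint ν S hS R hR
  obtain ⟨A, -, -, hA0, hAR, hcm⟩ := exists_good_set_of_swap K hK hconv ν S hS R hR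
    (fun n x r hr hdisj hsub => swap_ineq K hK hint ν S hS R hR n x r hr hdisj hsub)
  have hprob : IsProbabilityMeasure (unif K) := unif_isProbabilityMeasure hK hint
  have hAne : A.Nonempty := by
    by_contra h
    rw [Set.not_nonempty_iff_eq_empty] at h
    rw [h, Set.compl_empty, measure_univ] at hA0
    exact one_ne_zero hA0
  obtain ⟨ψ, hψ, hL, hsub⟩ := rockafellar A hAne S R hAR hcm
  refine ⟨ψ, hψ, hL, ?_⟩
  have hae : ∀ᵐ x ∂(unif K), x ∈ A := by
    rw [ae_iff]
    exact hA0
  filter_upwards [hae] with x hx using hsub x hx

/-- The real-valued stability estimate against an arbitrary coupling of the targets. -/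
theorem real_statement (d : ℕ) : RealStatement d :=
  real_of_pot_core d (pot_statement d) (core_stability d)

/-- The exponent `1/4` is admissible for `W_1`. -/
theorem admissible1_quarter (d : ℕ) : Admissible1 d (1 / 4) :=
  (admissible_of_real d (real_statement d)).1

/-- The exponent `1/4` is admissible. -/
theorem admissible_quarter (d : ℕ) : Admissible d (1 / 4) :=
  (admissible_of_real d (real_statement d)).2

/-- The supremum of the admissible exponents is at least `1/4`. -/
theorem quarter_le_sSup_admissible (d : ℕ) :
    1 / 4 ≤ sSup {α : ℝ | 0 < α ∧ α ≤ 1 ∧ Admissible d α} := by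
  apply le_csSup
  · exact ⟨1, fun α hα => hα.2.1⟩
  · exact ⟨by norm_num, by norm_num, admissible_quarter d⟩

end Vale.Agent.Lib.P074
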