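import Vale.Agent.Lib.P074.LB.Core

/-!
# P074 lower bound: the integral over a convex body of a second difference is `O(‖w‖^2)`
-/

namespace Vale.Agent.Lib.P074

open MeasureTheory ENNReal

variable {d : ℕ}

lemma lipschitz_continuous {ψ : E d → ℝ} {R : ℝ} (hL : ∀ x y, |ψ x - ψ y| ≤ R * ‖x - y‖) :
    Continuous ψ := by
  have : LipschitzWith (Real.toNNReal R) ψ := by
    refine LipschitzWith.of_dist_le_mul fun x y => ?_
    rw [Real.dist_eq, dist_eq_norm]
    calc |ψ x - ψ y| ≤ R * ‖x - y‖ := hL x y
      _ ≤ (Real.toNNReal R : ℝ) * ‖x - y‖ := by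
          gcongr
          exact Real.le_coe_toNNReal R
  exact this.continuous

lemma sd_continuous {ψ : E d → ℝ} (hc : Continuous ψ) (w : E d) : Continuous (fun x => sd ψ w x) := by
  unfold sd
  fun_prop

lemma sd_continuous_w {ψ : E d → ℝ} (hc : Continuous ψ) (x : E d) :
    Continuous (fun w => sd ψ w x) := by
  unfold sd
  fun_prop

lemma sd_continuous_uncurry {ψ : E d → ℝ} (hc : Continuous ψ) :
    Continuous (fun p : E d × E d => sd ψ p.2 p.1) := by
  unfold sd
  fun_prop

/-- The integral over a convex body `K ⊇ closedBall c r0` of the second difference of an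
`R`-Lipschitz function in the direction `w` is at most `2 (d+1) R ‖w‖^2 vol(K) / r0`. -/
lemma integral_sd_le {K : Set (E d)} (hK : IsCompact K) (hconv : Convex ℝ K) {c : E d} {r0 : ℝ}
    (hr0 : 0 < r0) (hball : Metric.closedBall c r0 ⊆ K) {ψ : E d → ℝ} {R : ℝ} (hR : 0 ≤ R)
    (hL : ∀ x y, |ψ x - ψ y| ≤ R * ‖x - y‖) (w : E d) :
    ∫ x in K, sd ψ w x ≤ 2 * (d + 1) * R * ‖w‖ ^ 2 / r0 * (volume K).toReal := by
  have hc : Continuous ψ := lipschitz_continuous hL
  have hKm : MeasurableSet K := hK.isClosed.measurableSet
  have hVfin : volume K ≠ ⊤ := hK.measure_lt_top.ne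
  set V := (volume K).toReal with hV
  have hV0 : 0 ≤ V := ENNReal.toReal_nonneg
  by_cases hw0 : w = 0
  · subst hw0
    simp only [sd_zero, integral_zero, norm_zero]
    positivity
  have hwpos : 0 < ‖w‖ := norm_pos_iff.mpr hw0
  by_cases hbig : r0 < ‖w‖
  · -- trivial bound
    have h1 : ∫ x in K, sd ψ w x ≤ ∫ _ in K, 2 * R * ‖w‖ := by
      apply setIntegral_mono_on _ _ hKm (fun x _ => sd_le_of_lipschitz hL w x)
      · exact ((sd_continuous hc w).continuousOn.integrableOn_compact hK)
      · exact integrableOn_const hVfin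
    have h2 : ∫ _ in K, 2 * R * ‖w‖ = V * (2 * R * ‖w‖) := by
      rw [setIntegral_const, smul_eq_mul]; rfl
    have h3 : 2 * R * ‖w‖ ≤ 2 * (d + 1) * R * ‖w‖ ^ 2 / r0 := by
      rw [le_div_iff₀ hr0]
      have : (0 : ℝ) ≤ d := Nat.cast_nonneg d
      nlinarith [mul_nonneg hR hwpos.le, mul_nonneg (mul_nonneg hR hwpos.le) this,
        mul_nonneg (mul_nonneg hR hwpos.le) (sub_nonneg.mpr hbig.le)]
    calc ∫ x in K, sd ψ w x ≤ V * (2 * R * ‖w‖) := h1.trans h2.le
      _ ≤ V * (2 * (d + 1) * R * ‖w‖ ^ 2 / r0) := by gcongr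
      _ = 2 * (d + 1) * R * ‖w‖ ^ 2 / r0 * V := by ring
  · push Not at hbig
    set t := ‖w‖ / r0 with ht
    have ht0 : 0 < t := div_pos hwpos hr0
    have ht1 : t ≤ 1 := by rw [ht, div_le_one hr0]; exact hbig
    set g : E d → ℝ := fun x => ψ (x + w) - ψ x with hg
    have hgc : Continuous g := by rw [hg]; fun_prop
    have hgb : ∀ x, |g x| ≤ R * ‖w‖ := by
      intro x
      have := hL (x + w) x
      simpa [hg] using this
    set K' := AffineMap.homothety c (1 - t) '' K with hK'
    set K₂ := (fun y => y + w) ⁻¹' K with hK₂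
    have hK₂m : MeasurableSet K₂ := (measurable_id.add_const w) hKm
    have hK'c : IsCompact K' := hK.image (AffineMap.homothety_continuous c (1 - t))
    have hK'm : MeasurableSet K' := hK'c.isClosed.measurableSet
    have hcK : c ∈ K := hball (Metric.mem_closedBall_self hr0.le)
    have hsub1 : K' ⊆ K := by
      rintro _ ⟨x, hx, rfl⟩
      rw [AffineMap.homothety_apply]
      have : (1 - t) • (x -ᵥ c) +ᵥ c = (1 - t) • x + t • c := by
        simp only [vsub_eq_sub, vadd_eq_add, smul_sub, sub_smul, one_smul]; abel
      rw [this]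
      exact hconv hx hcK (by linarith) ht0.le (by ring)
    have hsub2 : K' ⊆ K₂ := by
      rintro _ ⟨x, hx, rfl⟩
      show AffineMap.homothety c (1 - t) x + w ∈ K
      rw [AffineMap.homothety_apply]
      have hp : c + t⁻¹ • w ∈ K := by
        apply hball
        rw [Metric.mem_closedBall, dist_eq_norm, add_sub_cancel_left, norm_smul, Real.norm_eq_abs,
          abs_of_pos (inv_pos.mpr ht0), ht, inv_div, div_mul_cancel₀ _ hwpos.ne']
      have : ((1 - t) • (x -ᵥ c) +ᵥ c) + w = (1 - t) • x + t • (c + t⁻¹ • w) := by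
        simp only [vsub_eq_sub, vadd_eq_add, smul_sub, sub_smul, one_smul, smul_add, smul_smul]
        rw [mul_inv_cancel₀ ht0.ne', one_smul]; abel
      rw [this]
      exact hconv hx hp (by linarith) ht0.le (by ring)
    have hvol' : (volume K').toReal = (1 - t) ^ d * V := by
      rw [hK', Measure.addHaar_image_homothety, finrank_euclideanSpace_fin, ENNReal.toReal_mul,
        ENNReal.toReal_ofReal (abs_nonneg _), abs_of_nonneg (pow_nonneg (by linarith) d)]
    have hvol₂ : (volume K₂).toReal = V := by
      rw [hK₂, measure_preimage_add_right]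
    have hK₂fin : volume K₂ ≠ ⊤ := by
      rw [hK₂, measure_preimage_add_right]; exact hVfin
    have hK'fin : volume K' ≠ ⊤ := hK'c.measure_lt_top.ne
    -- rewrite the integral
    have hsd : ∀ x, sd ψ w x = g x - g (x - w) := by
      intro x
      simp only [hg, sd, sub_add_cancel]; ring
    have hi1 : Integrable (K.indicator g) volume :=
      (hgc.continuousOn.integrableOn_compact hK).integrable_indicator hKm
    have hi2' : IntegrableOn g K₂ volume := by
      refine Measure.integrableOn_of_bounded hK₂fin hgc.aestronglyMeasurable (M := R * ‖w‖) ?_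
      exact Filter.Eventually.of_forall fun x => by rw [Real.norm_eq_abs]; exact hgb x
    have hi2 : Integrable (K₂.indicator g) volume := hi2'.integrable_indicator hK₂m
    have hshift : ∫ x in K, g (x - w) = ∫ y, K₂.indicator g y := by
      rw [← integral_indicator hKm]
      rw [← integral_add_right_eq_self (fun x => K.indicator (fun x => g (x - w)) x) w]
      congr 1
      ext y
      by_cases hy : y ∈ K₂
      · have hy' : y + w ∈ K := hy
        rw [Set.indicator_of_mem hy, Set.indicator_of_mem hy', add_sub_cancel_right]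
      · have hy' : y + w ∉ K := hy
        rw [Set.indicator_of_notMem hy, Set.indicator_of_notMem hy']
    have hmain : ∫ x in K, sd ψ w x = ∫ y, (K.indicator g y - K₂.indicator g y) := by
      have : (fun x => sd ψ w x) = fun x => g x - g (x - w) := funext hsd
      have hia : IntegrableOn (fun x => g x) K volume :=
        hgc.continuousOn.integrableOn_compact hK
      have hib : IntegrableOn (fun x => g (x - w)) K volume :=
        (hgc.comp (continuous_id.sub continuous_const)).continuousOn.integrableOn_compact hK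
      have hic : Integrable (fun y => K.indicator g y) volume := hi1
      have hid : Integrable (fun y => K₂.indicator g y) volume := hi2
      rw [this, integral_sub hia hib, hshift, integral_sub hic hid, integral_indicator hKm]
    -- pointwise bound
    have hione : ∀ {s : Set (E d)}, MeasurableSet s → volume s ≠ ⊤ →
        Integrable (s.indicator (fun _ => (1 : ℝ))) volume := by
      intro s hs hfin
      exact (integrableOn_const hfin).integrable_indicator hs
    have hintone : ∀ {s : Set (E d)}, MeasurableSet s →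
        ∫ y, s.indicator (fun _ => (1 : ℝ)) y = (volume s).toReal := by
      intro s hs
      rw [integral_indicator hs, setIntegral_const, smul_eq_mul, mul_one]; rfl
    have hpt : ∀ y, K.indicator g y - K₂.indicator g y ≤
        R * ‖w‖ * (K.indicator (fun _ => (1 : ℝ)) y - K'.indicator (fun _ => (1 : ℝ)) y +
          (K₂.indicator (fun _ => (1 : ℝ)) y - K'.indicator (fun _ => (1 : ℝ)) y)) := by
      intro y
      have hgy := abs_le.mp (hgb y)
      have hRw : 0 ≤ R * ‖w‖ := mul_nonneg hR hwpos.le
      by_cases h' : y ∈ K'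
      · have h1 := hsub1 h'
        have h2 := hsub2 h'
        simp [Set.indicator_of_mem h', Set.indicator_of_mem h1, Set.indicator_of_mem h2]
      · by_cases h1 : y ∈ K <;> by_cases h2 : y ∈ K₂ <;>
          simp only [Set.indicator_of_mem, Set.indicator_of_notMem, h', h1, h2,
            not_false_eq_true] <;> nlinarith
    have hint : ∫ y, (K.indicator g y - K₂.indicator g y) ≤
        R * ‖w‖ * (V - (1 - t) ^ d * V + (V - (1 - t) ^ d * V)) := by
      have hI : Integrable (fun y => R * ‖w‖ * (K.indicator (fun _ => (1 : ℝ)) y -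
          K'.indicator (fun _ => (1 : ℝ)) y + (K₂.indicator (fun _ => (1 : ℝ)) y -
          K'.indicator (fun _ => (1 : ℝ)) y))) volume :=
        (((hione hKm hVfin).sub (hione hK'm hK'fin)).add
          ((hione hK₂m hK₂fin).sub (hione hK'm hK'fin))).const_mul _
      calc ∫ y, (K.indicator g y - K₂.indicator g y)
          ≤ ∫ y, R * ‖w‖ * (K.indicator (fun _ => (1 : ℝ)) y -
            K'.indicator (fun _ => (1 : ℝ)) y + (K₂.indicator (fun _ => (1 : ℝ)) y -
            K'.indicator (fun _ => (1 : ℝ)) y)) := integral_mono (hi1.sub hi2) hI hpt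
        _ = R * ‖w‖ * (V - (1 - t) ^ d * V + (V - (1 - t) ^ d * V)) := by
          have hA : Integrable (fun y => K.indicator (fun _ => (1 : ℝ)) y -
              K'.indicator (fun _ => (1 : ℝ)) y) volume :=
            (hione hKm hVfin).sub (hione hK'm hK'fin)
          have hB : Integrable (fun y => K₂.indicator (fun _ => (1 : ℝ)) y -
              K'.indicator (fun _ => (1 : ℝ)) y) volume :=
            (hione hK₂m hK₂fin).sub (hione hK'm hK'fin)
          have h1 : Integrable (fun y => K.indicator (fun _ => (1 : ℝ)) y) volume :=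
            hione hKm hVfin
          have h2 : Integrable (fun y => K'.indicator (fun _ => (1 : ℝ)) y) volume :=
            hione hK'm hK'fin
          have h3 : Integrable (fun y => K₂.indicator (fun _ => (1 : ℝ)) y) volume :=
            hione hK₂m hK₂fin
          rw [integral_const_mul, integral_add hA hB, integral_sub h1 h2, integral_sub h3 h2,
            hintone hKm, hintone hK'm, hintone hK₂m, hvol', hvol₂]
    have hbern : 1 - d * t ≤ (1 - t) ^ d := by
      have := one_add_mul_le_pow (show (-2 : ℝ) ≤ -t by linarith) d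
      have e : (1 : ℝ) + -t = 1 - t := by ring
      rw [e] at this
      linarith
    rw [hmain]
    refine hint.trans ?_
    have hRw : 0 ≤ R * ‖w‖ := mul_nonneg hR hwpos.le
    have h5 : V - (1 - t) ^ d * V ≤ d * t * V := by nlinarith
    have h6 : R * ‖w‖ * (V - (1 - t) ^ d * V + (V - (1 - t) ^ d * V)) ≤
        R * ‖w‖ * (2 * (d * t * V)) := by
      apply mul_le_mul_of_nonneg_left _ hRw
      linarith
    refine h6.trans ?_
    have e : R * ‖w‖ * (2 * (d * t * V)) = 2 * d * R * ‖w‖ ^ 2 / r0 * V := by
      rw [ht]; field_simp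
    rw [e]
    have h7 : 0 ≤ R * ‖w‖ ^ 2 / r0 * V := by positivity
    have e2 : 2 * (d + 1) * R * ‖w‖ ^ 2 / r0 * V = 2 * d * R * ‖w‖ ^ 2 / r0 * V +
        2 * (R * ‖w‖ ^ 2 / r0 * V) := by ring
    rw [e2]
    linarith

end Vale.Agent.Lib.P074
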