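import Vale.Agent.Lib.P074.DefsW1

/-!
# P074 lower bound: the three intermediate statements (interfaces between the parts of the proof)
-/

namespace Vale.Agent.Lib.P074

open MeasureTheory ENNReal

/-- The statement of the Brenier-type reduction (will be a theorem `exists_potential`). -/
def PotStatement (d : ℕ) : Prop :=
  ∀ K : Set (E d), IsCompact K → Convex ℝ K → (interior K).Nonempty →
    ∀ (ν : Measure (E d)) (S : E d → E d), IsOptMap (unif K) ν S →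
      ∀ R : ℝ, (∀ᵐ x ∂(unif K), ‖S x‖ ≤ R) →
        ∃ ψ : E d → ℝ, ConvexOn ℝ Set.univ ψ ∧ (∀ x y, |ψ x - ψ y| ≤ R * ‖x - y‖) ∧
          ∀ᵐ x ∂(unif K), ∀ z, ψ x + inner ℝ (S x) (z - x) ≤ ψ z

/-- The statement of the analytic core (will be a theorem `core_stability`). -/
def CoreStatement (d : ℕ) : Prop :=
  ∀ K : Set (E d), IsCompact K → Convex ℝ K → (interior K).Nonempty → ∀ R : ℝ, 0 ≤ R →
    ∃ C : ℝ, 0 ≤ C ∧ ∀ (φ ψ : E d → ℝ) (T S : E d → E d),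
      ConvexOn ℝ Set.univ φ → ConvexOn ℝ Set.univ ψ →
      (∀ x y, |φ x - φ y| ≤ R * ‖x - y‖) → (∀ x y, |ψ x - ψ y| ≤ R * ‖x - y‖) →
      Measurable T → Measurable S →
      (∀ᵐ x ∂(unif K), ∀ z, φ x + inner ℝ (T x) (z - x) ≤ φ z) →
      (∀ᵐ x ∂(unif K), ∀ z, ψ x + inner ℝ (S x) (z - x) ≤ ψ z) →
      ∀ Γ : Measure (E d × E d), Γ.map Prod.fst = unif K → Γ.map Prod.snd = unif K →
        ∫ x, ‖T x - S x‖ ^ 2 ∂(unif K) ≤
          2 * ∫ q, ‖T q.1 - S q.2‖ ^ 2 ∂Γ + C * Real.sqrt (∫ q, ‖T q.1 - S q.2‖ ∂Γ)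

/-- The real-valued stability estimate against an arbitrary coupling. -/
def RealStatement (d : ℕ) : Prop :=
  ∀ K : Set (E d), IsCompact K → Convex ℝ K → (interior K).Nonempty →
    ∀ Y : Set (E d), IsCompact Y → Y.Nonempty →
      ∃ C : ℝ, 0 ≤ C ∧ ∀ μ ν : Measure (E d), IsProbabilityMeasure μ → IsProbabilityMeasure ν →
        μ Y = 1 → ν Y = 1 →
          ∀ T S : E d → E d, IsOptMap (unif K) μ T → IsOptMap (unif K) ν S →
            ∀ π : Measure (E d × E d), π.map Prod.fst = μ → π.map Prod.snd = ν →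
              ∫ x, ‖T x - S x‖ ^ 2 ∂(unif K) ≤ C * Real.sqrt (∫ p, ‖p.1 - p.2‖ ∂π)

end Vale.Agent.Lib.P074
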