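import Vale.Agent.Lib.P074.LB.Avg
import Vale.Agent.Lib.P074.LB.Shift
import Vale.Agent.Lib.P074.LB.Statements

/-!
# P074 lower bound: the analytic core

`‖T - S‖²_{L²(ρ)} ≤ 2 ∫ ‖T x - S x'‖² dΓ + C (∫ ‖T x - S x'‖ dΓ)^{1/2}` for a.e. subgradient
selections `T, S` of convex Lipschitz functions and any coupling `Γ` of `ρ = unif K` with itself.
-/

namespace Vale.Agent.Lib.P074

open MeasureTheory ENNReal

variable {d : ℕ}

lemma volume_pos_of_interior {K : Set (E d)} (hint : (interior K).Nonempty) : 0 < volume K :=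
  lt_of_lt_of_le (isOpen_interior.measure_pos volume hint) (measure_mono interior_subset)

lemma unif_isProbabilityMeasure {K : Set (E d)} (hK : IsCompact K)
    (hint : (interior K).Nonempty) : IsProbabilityMeasure (unif K) := by
  constructor
  unfold unif
  rw [Measure.smul_apply, Measure.restrict_apply MeasurableSet.univ, Set.univ_inter, smul_eq_mul]
  exact ENNReal.inv_mul_cancel (volume_pos_of_interior hint).ne' hK.measure_lt_top.ne

lemma ae_mem_unif {K : Set (E d)} (hK : IsCompact K) : ∀ᵐ x ∂(unif K), x ∈ K := by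
  unfold unif
  apply Measure.ae_smul_measure
  exact ae_restrict_mem hK.isClosed.measurableSet

lemma integral_unif (K : Set (E d)) (f : E d → ℝ) :
    ∫ x, f x ∂(unif K) = (volume K).toReal⁻¹ * ∫ x in K, f x := by
  unfold unif
  rw [integral_smul_measure, ENNReal.toReal_inv, smul_eq_mul]

lemma norm_le_of_subgradient {ψ : E d → ℝ} {R : ℝ} (hR : 0 ≤ R)
    (hL : ∀ x y, |ψ x - ψ y| ≤ R * ‖x - y‖) {x p : E d}
    (hp : ∀ z, ψ x + inner ℝ p (z - x) ≤ ψ z) : ‖p‖ ≤ R := by
  have h1 := hp (x + p)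
  have h2 := (abs_le.mp (hL (x + p) x)).2
  rw [add_sub_cancel_left] at h1 h2
  rw [real_inner_self_eq_norm_sq] at h1
  by_contra hcon
  push Not at hcon
  have hpos : 0 < ‖p‖ := lt_of_le_of_lt hR hcon
  nlinarith

/-- The averaged second difference. -/
noncomputable def avgSd (ψ : E d → ℝ) (h : ℝ) (x : E d) : ℝ :=
  (volume (Metric.ball (0 : E d) h)).toReal⁻¹ * ∫ w in Metric.ball (0 : E d) (2 * h), sd ψ w x

lemma volume_ball_two_mul (h : ℝ) :
    (volume (Metric.ball (0 : E d) (2 * h))).toReal =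
      2 ^ d * (volume (Metric.ball (0 : E d) h)).toReal := by
  rw [Measure.addHaar_ball_mul_of_pos volume (0 : E d) (by norm_num : (0 : ℝ) < 2) h,
    finrank_euclideanSpace_fin, ENNReal.toReal_mul, ENNReal.toReal_ofReal (by positivity)]

lemma volume_ball_pos_real {h : ℝ} (hh : 0 < h) :
    0 < (volume (Metric.ball (0 : E d) h)).toReal :=
  ENNReal.toReal_pos (Metric.measure_ball_pos volume 0 hh).ne' measure_ball_lt_top.ne

lemma avgSd_nonneg {ψ : E d → ℝ} (hψ : ConvexOn ℝ Set.univ ψ) (h : ℝ) (x : E d) :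
    0 ≤ avgSd ψ h x := by
  unfold avgSd
  apply mul_nonneg (inv_nonneg.mpr ENNReal.toReal_nonneg)
  exact integral_nonneg fun w => sd_nonneg hψ w x

lemma sd_le_avgSd {ψ : E d → ℝ} (hψ : ConvexOn ℝ Set.univ ψ) (hc : Continuous ψ) {h : ℝ}
    (hh : 0 < h) (x : E d) {w : E d} (hw : ‖w‖ ≤ h) : sd ψ w x ≤ avgSd ψ h x := by
  have := convex_le_avg (sd_convex hψ x) (sd_continuous_w hc x) (fun w => sd_nonneg hψ w x) w hw
  unfold avgSd
  rw [le_inv_mul_iff₀ (volume_ball_pos_real hh)]
  exact this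

lemma avgSd_le_bound {ψ : E d → ℝ} {R : ℝ} (hR : 0 ≤ R)
    (hL : ∀ x y, |ψ x - ψ y| ≤ R * ‖x - y‖) {h : ℝ} (hh : 0 < h) (x : E d) :
    avgSd ψ h x ≤ 2 ^ d * (4 * R * h) := by
  have hc := lipschitz_continuous hL
  unfold avgSd
  have h1 : ∫ w in Metric.ball (0 : E d) (2 * h), sd ψ w x ≤
      ∫ _ in Metric.ball (0 : E d) (2 * h), 4 * R * h := by
    apply setIntegral_mono_on _ _ Metric.isOpen_ball.measurableSet
    · intro w hw
      have hw' : ‖w‖ < 2 * h := by simpa [Metric.mem_ball, dist_zero_right] using hw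
      calc sd ψ w x ≤ 2 * R * ‖w‖ := sd_le_of_lipschitz hL w x
        _ ≤ 2 * R * (2 * h) := by gcongr
        _ = 4 * R * h := by ring
    · exact integrableOn_ball_of_continuous (sd_continuous_w hc x) 0 (2 * h)
    · exact integrableOn_const measure_ball_lt_top.ne
  rw [setIntegral_const, smul_eq_mul] at h1
  have h1' : ∫ w in Metric.ball (0 : E d) (2 * h), sd ψ w x ≤
      (volume (Metric.ball (0 : E d) (2 * h))).toReal * (4 * R * h) := h1
  rw [volume_ball_two_mul] at h1'
  rw [inv_mul_le_iff₀ (volume_ball_pos_real hh)]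
  calc ∫ w in Metric.ball (0 : E d) (2 * h), sd ψ w x
      ≤ 2 ^ d * (volume (Metric.ball (0 : E d) h)).toReal * (4 * R * h) := h1'
    _ = (volume (Metric.ball (0 : E d) h)).toReal * (2 ^ d * (4 * R * h)) := by ring

lemma avgSd_measurable {ψ : E d → ℝ} (hc : Continuous ψ) (h : ℝ) :
    Measurable (avgSd ψ h) := by
  unfold avgSd
  apply Measurable.const_mul
  have hsm : StronglyMeasurable (fun p : E d × E d => sd ψ p.2 p.1) :=
    (sd_continuous_uncurry hc).stronglyMeasurable
  exact (hsm.integral_prod_right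
    (ν := volume.restrict (Metric.ball (0 : E d) (2 * h)))).measurable

/-- The integral of the averaged second difference over `K`. -/
lemma integral_avgSd_le {K : Set (E d)} (hK : IsCompact K) (hconv : Convex ℝ K) {c : E d}
    {r0 : ℝ} (hr0 : 0 < r0) (hball : Metric.closedBall c r0 ⊆ K) {ψ : E d → ℝ} {R : ℝ}
    (hR : 0 ≤ R) (hL : ∀ x y, |ψ x - ψ y| ≤ R * ‖x - y‖) {h : ℝ} (hh : 0 < h) :
    ∫ x in K, avgSd ψ h x ≤ 2 ^ d * (8 * (d + 1) * R / r0) * h ^ 2 * (volume K).toReal := by
  have hc := lipschitz_continuous hL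
  set B2 := Metric.ball (0 : E d) (2 * h) with hB2
  have hB2m : MeasurableSet B2 := Metric.isOpen_ball.measurableSet
  have hint : Integrable (Function.uncurry fun (x : E d) (w : E d) => sd ψ w x)
      ((volume.restrict K).prod (volume.restrict B2)) := by
    rw [Measure.prod_restrict]
    have hcomp : IsCompact (K ×ˢ Metric.closedBall (0 : E d) (2 * h)) :=
      hK.prod (isCompact_closedBall 0 (2 * h))
    have hcont : Continuous (Function.uncurry fun (x : E d) (w : E d) => sd ψ w x) :=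
      sd_continuous_uncurry hc
    exact (hcont.continuousOn.integrableOn_compact hcomp).mono_set
      (Set.prod_mono le_rfl Metric.ball_subset_closedBall)
  have hswap : ∫ x in K, ∫ w in B2, sd ψ w x = ∫ w in B2, ∫ x in K, sd ψ w x :=
    integral_integral_swap hint
  have hbound : ∫ w in B2, ∫ x in K, sd ψ w x ≤
      ∫ _ in B2, 2 * (d + 1) * R * (2 * h) ^ 2 / r0 * (volume K).toReal := by
    apply setIntegral_mono_on _ _ hB2m
    · intro w hw
      have hw' : ‖w‖ < 2 * h := by simpa [hB2, Metric.mem_ball, dist_zero_right] using hw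
      calc ∫ x in K, sd ψ w x ≤ 2 * (d + 1) * R * ‖w‖ ^ 2 / r0 * (volume K).toReal :=
            integral_sd_le hK hconv hr0 hball hR hL w
        _ ≤ 2 * (d + 1) * R * (2 * h) ^ 2 / r0 * (volume K).toReal := by
            have : ‖w‖ ^ 2 ≤ (2 * h) ^ 2 := by
              apply pow_le_pow_left₀ (norm_nonneg _) hw'.le
            gcongr
    · exact hint.integral_prod_right
    · exact integrableOn_const measure_ball_lt_top.ne
  rw [setIntegral_const, smul_eq_mul] at hbound
  have hbound' : ∫ w in B2, ∫ x in K, sd ψ w x ≤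
      (volume B2).toReal * (2 * (d + 1) * R * (2 * h) ^ 2 / r0 * (volume K).toReal) := hbound
  rw [hB2, volume_ball_two_mul] at hbound'
  have hVB := volume_ball_pos_real (d := d) hh
  unfold avgSd
  rw [integral_const_mul, hswap, inv_mul_le_iff₀ hVB]
  refine hbound'.trans (le_of_eq ?_)
  field_simp
  ring

end Vale.Agent.Lib.P074
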